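import Vale.Agent.P045.H414.Final

namespace Vale.Agent.Results.P045.AllLargeR

open Vale.Agent.P045

/-- **Ryser's conjecture fails for every sufficiently large `r`**, already for intersecting
hypergraphs, and there the trivial bound `τ ≤ r ν` is attained for every value of `ν`. -/
theorem result :
    (∃ R : ℕ, ∀ r : ℕ, R ≤ r →
      (∃ (V : Type) (_ : Fintype V) (H : PartiteHypergraph r V),
        H.IsIntersecting ∧ H.matchingNumber = 1 ∧ H.coveringNumber = r) ∧
      ∀ m : ℕ, ∃ (V : Type) (_ : Fintype V) (H : PartiteHypergraph r V),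
        H.matchingNumber = m ∧ H.coveringNumber = r * m) ∧
    (∀ h : ℕ, 5 ≤ h → Nat.Coprime h 126 →
      (∃ (V : Type) (_ : Fintype V) (H : PartiteHypergraph (127 ^ h + 635) V),
        H.IsIntersecting ∧ H.matchingNumber = 1 ∧ H.coveringNumber = 127 ^ h + 635) ∧
      ∀ m : ℕ, ∃ (V : Type) (_ : Fintype V) (H : PartiteHypergraph (127 ^ h + 635) V),
        H.matchingNumber = m ∧ H.coveringNumber = (127 ^ h + 635) * m) ∧
    ¬ (∀ r : ℕ, 2 ≤ r → ∀ (V : Type) (_ : Fintype V) (H : PartiteHypergraph r V),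
        H.IsIntersecting → H.coveringNumber ≤ r - 1) ∧
    ¬ (∀ r : ℕ, 2 ≤ r → ∀ (V : Type) (_ : Fintype V) (H : PartiteHypergraph r V),
        H.coveringNumber ≤ (r - 1) * H.matchingNumber) := by
  obtain ⟨h1, h2, -, h4, h5⟩ := P045.LS.final_of_dual P045.LS.dualCE_main
  exact ⟨P045.LS.final_all_large, fun h hh hc => ⟨h1 h hh hc, h2 h hh hc⟩, h4, h5⟩

end Vale.Agent.Results.P045.AllLargeR
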