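import Vale.Agent.P045.H114.Main

/-!
Ryser's conjecture: for all large `r` every pair of a matching number and a covering number which
the trivial bounds allow occurs, with few edges; the form for monochromatic trees.
-/

namespace Vale.Agent.Results.P045.FullSpectrum

open Finset

section

variable {r : ℕ} {V W : Type}

/-- `E` is the set of edges of an `r`-partite `r`-uniform hypergraph with vertex set `V` and with
the parts `{v | part v = i}`: every edge has exactly one vertex in every part. -/
def Partite (part : V → Fin r) (E : Finset (Finset V)) : Prop :=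
  ∀ e ∈ E, ∀ i : Fin r, ∃! v, v ∈ e ∧ part v = i

/-- There is at least one edge, and no two edges are disjoint. -/
def Intersecting (E : Finset (Finset V)) : Prop :=
  E.Nonempty ∧ ∀ e ∈ E, ∀ f ∈ E, ¬ Disjoint e f

/-- `τ` is the least size of a set of vertices which meets every edge. -/
def CoveringNumber (E : Finset (Finset V)) (τ : ℕ) : Prop :=
  IsLeast {k | ∃ C : Finset V, (∀ e ∈ E, ∃ v ∈ e, v ∈ C) ∧ C.card = k} τ

/-- `ν` is the greatest number of pairwise disjoint edges. -/
def MatchingNumber (E : Finset (Finset V)) (ν : ℕ) : Prop :=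
  IsGreatest {k | ∃ M : Finset (Finset V), M ⊆ E ∧ (M : Set (Finset V)).Pairwise Disjoint ∧
    M.card = k} ν

/-- The graph of the edges of colour `i`. -/
def colourClass (G : SimpleGraph W) (c : Sym2 W → Fin r) (i : Fin r) : SimpleGraph W :=
  SimpleGraph.fromEdgeSet {z | z ∈ G.edgeSet ∧ c z = i}

/-- `t` is the least number of monochromatic trees which cover all vertices of `G`, for the edge
colouring `c`; the largest tree of colour `i` through the vertex `x` has as vertices those which
are reachable from `x` in colour `i`. -/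
def TreeCoverNumber (G : SimpleGraph W) (c : Sym2 W → Fin r) (t : ℕ) : Prop :=
  IsLeast {k | ∃ S : Finset (Fin r × W),
    (∀ w, ∃ s ∈ S, (colourClass G c s.1).Reachable s.2 w) ∧ S.card = k} t

end

theorem result :
    -- Ryser's conjecture is false, and so is its intersecting case
    (¬ ∀ r : ℕ, 2 ≤ r → ∀ (V : Type) (_ : Fintype V) (part : V → Fin r)
        (E : Finset (Finset V)) (ν τ : ℕ), Partite part E → MatchingNumber E ν →
        CoveringNumber E τ → τ ≤ (r - 1) * ν) ∧
    (¬ ∀ r : ℕ, 2 ≤ r → ∀ (V : Type) (_ : Fintype V) (part : V → Fin r)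
        (E : Finset (Finset V)) (τ : ℕ), Partite part E → Intersecting E →
        CoveringNumber E τ → τ ≤ r - 1) ∧
    -- all large `r`, and explicit `r`
    ∃ R : ℕ, ∀ r : ℕ, (R ≤ r ∨ ∃ h : ℕ, 5 ≤ h ∧ Nat.Coprime h 126 ∧ r = 127 ^ h + 635) →
      -- the pairs of a matching number and a covering number
      (∀ a b : ℕ, (∃ (V : Type) (_ : Fintype V) (part : V → Fin r) (E : Finset (Finset V)),
        Partite part E ∧ MatchingNumber E a ∧ CoveringNumber E b ∧
          E.card ≤ a * (2 * r - 1).choose r) ↔ a ≤ b ∧ b ≤ r * a) ∧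
      -- the covering numbers of the intersecting hypergraphs
      (∀ t : ℕ, (∃ (V : Type) (_ : Fintype V) (part : V → Fin r) (E : Finset (Finset V)),
        Partite part E ∧ Intersecting E ∧ CoveringNumber E t ∧
          E.card ≤ (2 * r - 1).choose r) ↔ 1 ≤ t ∧ t ≤ r) ∧
      (∀ (V : Type) (_ : Fintype V) (part : V → Fin r) (E : Finset (Finset V)),
        Partite part E → Intersecting E → CoveringNumber E r → 2 * r - 1 ≤ E.card) ∧
      -- no `r - 1` vertices lower the matching number
      (∀ a : ℕ, ∃ (V : Type) (_ : Fintype V) (part : V → Fin r) (E : Finset (Finset V)),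
        Partite part E ∧ MatchingNumber E a ∧ ∀ C : Finset V, C.card ≤ r - 1 →
          ∃ M ⊆ E, (M : Set (Finset V)).Pairwise Disjoint ∧ M.card = a ∧
            ∀ e ∈ M, Disjoint e C) ∧
      -- edge colourings of graphs with `r` colours
      (∀ a : ℕ, ∃ (W : Type) (_ : Fintype W) (G : SimpleGraph W) (c : Sym2 W → Fin r),
        Fintype.card W ≤ a * (2 * r - 1).choose r ∧ G.indepNum = a ∧
          TreeCoverNumber G c (r * a) ∧ (a = 1 → G = ⊤)) := by
  obtain ⟨R, hR⟩ := Vale.Agent.P045.H114.all_large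
  have h0 := Vale.Agent.P045.H114.main (hR (max R 2) (Or.inl (le_max_left _ _))).1
    (hR (max R 2) (Or.inl (le_max_left _ _))).2
  have h2 : 2 ≤ max R 2 := le_max_right _ _
  refine ⟨fun hcon => ?_, fun hcon => ?_, R, fun r hr => ?_⟩
  · obtain ⟨V, iV, part, E, hP, hν, hτ, -⟩ := (h0.1 1 (max R 2)).2 ⟨by omega, by omega⟩
    have := hcon _ h2 V iV part E _ _ hP hν hτ
    omega
  · obtain ⟨V, iV, part, E, hP, hE, hI, hτ, -⟩ := (h0.2.1 (max R 2)).2 ⟨by omega, le_rfl⟩
    have := hcon _ h2 V iV part E _ hP ⟨hE, hI⟩ hτ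
    omega
  · obtain ⟨hr0, hex⟩ := hR r hr
    obtain ⟨ha, hb, hc, hd⟩ := Vale.Agent.P045.H114.main hr0 hex
    refine ⟨ha, fun t => ?_, ?_, hc, hd⟩
    · rw [← hb t]
      constructor
      · rintro ⟨V, iV, part, E, h1, ⟨h3, h4⟩, h5, h6⟩
        exact ⟨V, iV, part, E, h1, h3, h4, h5, h6⟩
      · rintro ⟨V, iV, part, E, h1, h3, h4, h5, h6⟩
        exact ⟨V, iV, part, E, h1, ⟨h3, h4⟩, h5, h6⟩
    · intro V _ part E hP hI hτ
      exact Vale.Agent.P045.H114.card_ge
        (Vale.Agent.P045.H114.IsPart.nonempty hr0 (part := part) hP) hI.2 hτ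

end Vale.Agent.Results.P045.FullSpectrum
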